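import Mathlib

/-!
Averaging functions on `ℝ⁴` over the unit cube in the last three coordinates.
-/

namespace Vale.Agent.H55.Tamed

open MeasureTheory Set

/-- The point `(t, y₀, y₁, y₂)` of `ℝ⁴`. -/
def cons4 (t : ℝ) (y : Fin 3 → ℝ) : Fin 4 → ℝ := Fin.cons t y

@[simp] theorem cons4_zero (t : ℝ) (y : Fin 3 → ℝ) : cons4 t y 0 = t := rfl

@[simp] theorem cons4_succ (t : ℝ) (y : Fin 3 → ℝ) (k : Fin 3) : cons4 t y k.succ = y k := rfl

theorem continuous_cons4 : Continuous (fun p : ℝ × (Fin 3 → ℝ) => cons4 p.1 p.2) := by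
  refine continuous_pi (fun i => ?_)
  refine Fin.cases ?_ ?_ i
  · simp only [cons4_zero]
    exact continuous_fst
  · intro k
    simp only [cons4_succ]
    exact (continuous_apply k).comp continuous_snd

theorem continuous_cons4_right (t : ℝ) : Continuous (fun y : Fin 3 → ℝ => cons4 t y) :=
  continuous_cons4.comp (Continuous.prodMk continuous_const continuous_id)

theorem cons4_add_time (t s : ℝ) (y : Fin 3 → ℝ) :
    cons4 (t + s) y = cons4 t y + s • Pi.single 0 1 := by
  funext i
  refine Fin.cases ?_ ?_ i
  · simp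
  · intro k
    simp [Fin.succ_ne_zero]

theorem cons4_add_space (t s : ℝ) (y : Fin 3 → ℝ) (j : Fin 3) :
    cons4 t (y + s • Pi.single j 1) = cons4 t y + s • Pi.single j.succ 1 := by
  funext i
  refine Fin.cases ?_ ?_ i
  · simp [(Fin.succ_ne_zero j).symm]
  · intro k
    by_cases hk : k = j
    · subst hk
      simp
    · simp [hk]

/-- The average of `f` over the unit cube in the last three coordinates, at height `t`. -/
noncomputable def avg (f : (Fin 4 → ℝ) → ℝ) (t : ℝ) : ℝ :=
  ∫ y in Set.Icc (0 : Fin 3 → ℝ) 1, f (cons4 t y)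

theorem hasDerivAt_cons4 (t : ℝ) (y : Fin 3 → ℝ) :
    HasDerivAt (fun t => cons4 t y) (Pi.single 0 1) t := by
  rw [hasDerivAt_pi]
  intro i
  refine Fin.cases ?_ ?_ i
  · simp only [cons4_zero, Pi.single_eq_same]
    exact hasDerivAt_id t
  · intro k
    simp only [cons4_succ, Pi.single_eq_of_ne (Fin.succ_ne_zero k)]
    exact hasDerivAt_const t _

/-- Differentiation under the integral sign in the first coordinate. -/
theorem hasDerivAt_avg (f : (Fin 4 → ℝ) → ℝ) (hf : ContDiff ℝ 1 f) (t₀ : ℝ) :
    HasDerivAt (avg f) (avg (fun x => fderiv ℝ f x (Pi.single 0 1)) t₀) t₀ := by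
  have hfd : Continuous (fun x => fderiv ℝ f x (Pi.single 0 1)) :=
    (hf.continuous_fderiv one_ne_zero).clm_apply continuous_const
  have hF'c : Continuous (fun p : ℝ × (Fin 3 → ℝ) =>
      fderiv ℝ f (cons4 p.1 p.2) (Pi.single 0 1)) := hfd.comp continuous_cons4
  obtain ⟨C, hC⟩ := ((isCompact_closedBall t₀ 1).prod
    (isCompact_Icc (a := (0 : Fin 3 → ℝ)) (b := 1))).exists_bound_of_continuousOn
      hF'c.continuousOn
  have key := hasDerivAt_integral_of_dominated_loc_of_deriv_le
    (μ := volume.restrict (Set.Icc (0 : Fin 3 → ℝ) 1))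
    (F := fun t y => f (cons4 t y))
    (F' := fun t y => fderiv ℝ f (cons4 t y) (Pi.single 0 1))
    (x₀ := t₀) (bound := fun _ => C) (s := Metric.ball t₀ 1) (Metric.ball_mem_nhds t₀ one_pos)
    (Filter.Eventually.of_forall (fun t =>
      (hf.continuous.comp (continuous_cons4_right t)).aestronglyMeasurable))
    ((hf.continuous.comp (continuous_cons4_right t₀)).continuousOn.integrableOn_compact
      isCompact_Icc)
    (hfd.comp (continuous_cons4_right t₀)).aestronglyMeasurable
    ((ae_restrict_iff' measurableSet_Icc).mpr (Filter.Eventually.of_forall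
      (fun y hy t ht => hC (t, y) ⟨Metric.ball_subset_closedBall ht, hy⟩)))
    (integrableOn_const measure_Icc_lt_top.ne)
    (Filter.Eventually.of_forall (fun y t _ =>
      ((hf.differentiable one_ne_zero _).hasFDerivAt).comp_hasDerivAt t (hasDerivAt_cons4 t y)))
  exact key.2

/-- The integral over the unit cube of a partial derivative of a differentiable function that is
`1`-periodic in that coordinate vanishes. -/
theorem integral_pderiv_periodic (h : (Fin 3 → ℝ) → ℝ) (hd : Differentiable ℝ h) (j : Fin 3)
    (hper : ∀ y, h (y + Pi.single j 1) = h y)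
    (hc : Continuous (fun y => fderiv ℝ h y (Pi.single j 1))) :
    ∫ y in Set.Icc (0 : Fin 3 → ℝ) 1, fderiv ℝ h y (Pi.single j 1) = 0 := by
  have hsum : ∀ x : Fin 3 → ℝ, ∑ i : Fin 3,
      (if i = j then fderiv ℝ h x else 0) (Pi.single i 1) = fderiv ℝ h x (Pi.single j 1) := by
    intro x
    rw [Finset.sum_eq_single j]
    · simp
    · intro i _ hij
      simp [hij]
    · simp
  have key := integral_divergence_of_hasFDerivAt_off_countable' (n := 2) (E := ℝ)
    (0 : Fin 3 → ℝ) 1 (fun i => zero_le_one) (fun i y => if i = j then h y else 0)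
    (fun i x => if i = j then fderiv ℝ h x else 0) ∅ countable_empty
    (fun i => by
      by_cases hij : i = j
      · simp only [hij, if_true]
        exact hd.continuous.continuousOn
      · simp only [hij, if_false]
        exact continuousOn_const)
    (fun x _ i => by
      by_cases hij : i = j
      · simp only [hij, if_true]
        exact (hd x).hasFDerivAt
      · simp only [hij, if_false]
        exact hasFDerivAt_const _ _)
    (by
      simp only [hsum]
      exact hc.continuousOn.integrableOn_compact isCompact_Icc)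
  simp only [hsum] at key
  rw [key]
  apply Finset.sum_eq_zero
  intro i _
  by_cases hij : i = j
  · subst hij
    simp only [if_true]
    have hfront : ∀ x : Fin 2 → ℝ, h (Fin.insertNth i ((1 : Fin 3 → ℝ) i) x) =
        h (Fin.insertNth i ((0 : Fin 3 → ℝ) i) x) := by
      intro x
      have heq : (Fin.insertNth i ((0 : Fin 3 → ℝ) i) x : Fin 3 → ℝ) + Pi.single i 1
          = Fin.insertNth i ((1 : Fin 3 → ℝ) i) x := by
        funext k
        rcases Fin.eq_self_or_eq_succAbove i k with rfl | ⟨l, rfl⟩
        · simp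
        · simp [Fin.succAbove_ne]
      rw [← heq, hper]
    simp only [hfront, sub_self]
  · simp only [hij, if_false, sub_self]

/-- The average of a spatial partial derivative of a spatially periodic function vanishes. -/
theorem avg_spatialDeriv (f : (Fin 4 → ℝ) → ℝ) (hf : ContDiff ℝ 1 f) (j : Fin 3)
    (hper : ∀ x, f (x + Pi.single j.succ 1) = f x) (t : ℝ) :
    avg (fun x => fderiv ℝ f x (Pi.single j.succ 1)) t = 0 := by
  have hfd : Differentiable ℝ f := hf.differentiable one_ne_zero
  have hcd : Differentiable ℝ (fun y : Fin 3 → ℝ => cons4 t y) := by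
    rw [differentiable_pi]
    intro i
    refine Fin.cases ?_ ?_ i
    · simp only [cons4_zero]
      exact differentiable_const t
    · intro k
      simp only [cons4_succ]
      exact differentiable_apply k
  have hd : Differentiable ℝ (fun y : Fin 3 → ℝ => f (cons4 t y)) := hfd.comp hcd
  have hderiv : ∀ y : Fin 3 → ℝ, fderiv ℝ (fun y : Fin 3 → ℝ => f (cons4 t y)) y (Pi.single j 1)
      = fderiv ℝ f (cons4 t y) (Pi.single j.succ 1) := by
    intro y
    rw [← (hd y).lineDeriv_eq_fderiv, ← (hfd (cons4 t y)).lineDeriv_eq_fderiv]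
    unfold lineDeriv
    simp only [cons4_add_space]
  unfold avg
  have h0 := integral_pderiv_periodic (fun y : Fin 3 → ℝ => f (cons4 t y)) hd j
    (fun y => by
      have := cons4_add_space t 1 y j
      simp only [one_smul] at this
      rw [this, hper])
    (by
      simp only [hderiv]
      exact ((hf.continuous_fderiv one_ne_zero).clm_apply continuous_const).comp
        (continuous_cons4_right t))
  simp only [hderiv] at h0
  exact h0

/-- The average of a continuous function that is positive on the slice is positive. -/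
theorem avg_pos (f : (Fin 4 → ℝ) → ℝ) (hf : Continuous f) (t : ℝ)
    (hpos : ∀ y, 0 < f (cons4 t y)) : 0 < avg f t := by
  have hc : Continuous (fun y : Fin 3 → ℝ => f (cons4 t y)) := hf.comp (continuous_cons4_right t)
  obtain ⟨y0, _, hmin⟩ := (isCompact_Icc (a := (0 : Fin 3 → ℝ)) (b := 1)).exists_isMinOn
    (Set.nonempty_Icc.mpr (fun i => zero_le_one)) hc.continuousOn
  have h1 : ∫ _ in Set.Icc (0 : Fin 3 → ℝ) 1, f (cons4 t y0)
      ≤ ∫ y in Set.Icc (0 : Fin 3 → ℝ) 1, f (cons4 t y) :=
    setIntegral_mono_on (integrableOn_const measure_Icc_lt_top.ne)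
      (hc.continuousOn.integrableOn_compact isCompact_Icc) measurableSet_Icc
      (fun y hy => hmin hy)
  have hvol : (volume : Measure (Fin 3 → ℝ)).real (Set.Icc (0 : Fin 3 → ℝ) 1) = 1 := by
    have h2 := Real.volume_Icc_pi_toReal (a := (0 : Fin 3 → ℝ)) (b := 1) (fun i => zero_le_one)
    rw [Measure.real, h2]
    simp
  rw [setIntegral_const, hvol, one_smul] at h1
  unfold avg
  linarith [hpos y0]

theorem avg_integrable (f : (Fin 4 → ℝ) → ℝ) (hf : Continuous f) (t : ℝ) :
    IntegrableOn (fun y : Fin 3 → ℝ => f (cons4 t y)) (Set.Icc (0 : Fin 3 → ℝ) 1) :=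
  (hf.comp (continuous_cons4_right t)).continuousOn.integrableOn_compact isCompact_Icc

theorem avg_add (f g : (Fin 4 → ℝ) → ℝ) (hf : Continuous f) (hg : Continuous g) (t : ℝ) :
    avg (fun x => f x + g x) t = avg f t + avg g t := by
  unfold avg
  exact integral_add (avg_integrable f hf t) (avg_integrable g hg t)

theorem avg_neg (f : (Fin 4 → ℝ) → ℝ) (t : ℝ) : avg (fun x => -f x) t = -avg f t := by
  unfold avg
  exact integral_neg _

theorem avg_const_mul (c : ℝ) (f : (Fin 4 → ℝ) → ℝ) (t : ℝ) :
    avg (fun x => c * f x) t = c * avg f t := by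
  unfold avg
  exact integral_const_mul c _

theorem avg_sum {ι : Type*} (s : Finset ι) (f : ι → (Fin 4 → ℝ) → ℝ)
    (hf : ∀ i ∈ s, Continuous (f i)) (t : ℝ) :
    avg (fun x => ∑ i ∈ s, f i x) t = ∑ i ∈ s, avg (f i) t := by
  unfold avg
  exact integral_finsetSum s (fun i hi => avg_integrable (f i) (hf i hi) t)

end Vale.Agent.H55.Tamed
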