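import Vale.Agent.H55.TamedMain
import Vale.Agent.H55.TamedAverage

/-!
Tamed-to-compatible on the four-torus for `T³`-invariant almost complex structures and arbitrary
taming symplectic forms.
-/

namespace Vale.Agent.H55.Tamed

open Matrix
open scoped ContDiff

/-- On a compact set, a continuous function that is positive on the zero set of a nonnegative
continuous function becomes positive after adding a large multiple of the latter. -/
theorem exists_c_of_compact {X : Type*} [TopologicalSpace X] (K : Set X) (hK : IsCompact K)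
    (G q : X → ℝ) (hG : Continuous G) (hq : Continuous q) (hq0 : ∀ p ∈ K, 0 ≤ q p)
    (hpos : ∀ p ∈ K, q p = 0 → 0 < G p) : ∃ c : ℝ, ∀ p ∈ K, 0 < G p + c * q p := by
  by_cases hne : K.Nonempty
  swap
  · exact ⟨0, fun p hp => absurd ⟨p, hp⟩ hne⟩
  have hZ : IsCompact (K ∩ {p | G p ≤ 0}) := hK.inter_right (isClosed_le hG continuous_const)
  by_cases hZne : (K ∩ {p | G p ≤ 0}).Nonempty
  · obtain ⟨z, hz, hzmin⟩ := hZ.exists_isMinOn hZne hq.continuousOn
    obtain ⟨p0, hp0, hp0min⟩ := hK.exists_isMinOn hne hG.continuousOn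
    have hzG : G z ≤ 0 := hz.2
    have hm : 0 < q z := by
      rcases (hq0 z hz.1).lt_or_eq with h | h
      · exact h
      · have := hpos z hz.1 h.symm
        linarith
    refine ⟨(|G p0| + 1) / q z, fun p hp => ?_⟩
    by_cases hGp : G p ≤ 0
    · have h1 : q z ≤ q p := hzmin ⟨hp, hGp⟩
      have h2 : G p0 ≤ G p := hp0min hp
      have h3 : |G p0| + 1 ≤ (|G p0| + 1) / q z * q p := by
        rw [div_mul_eq_mul_div, le_div_iff₀ hm]
        nlinarith [abs_nonneg (G p0)]
      have h4 := neg_abs_le (G p0)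
      linarith
    · have h5 : 0 ≤ (|G p0| + 1) / q z * q p := mul_nonneg (by positivity) (hq0 p hp)
      linarith [not_le.mp hGp]
  · refine ⟨0, fun p hp => ?_⟩
    have h6 : ¬ G p ≤ 0 := fun h => hZne ⟨p, hp, h⟩
    linarith [not_le.mp h6]

theorem continuous_fvec {T : Type*} [TopologicalSpace T] (Jt : T → Matrix (Fin 4) (Fin 4) ℝ)
    (hJt : Continuous Jt) : Continuous (fun t => fvec (Jt t)) := by
  refine continuous_pi (fun j => ?_)
  simp only [fvec]
  exact (hJt.matrix_elem 0 j).neg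

/-- A single constant `c` makes the corrected form taming for all parameters, assuming only that
the given forms are positive on the `J`-invariant planes inside the hyperplane `dx₀ = 0`. -/
theorem exists_uniform_c' (Jt Ot : ℝ → Matrix (Fin 4) (Fin 4) ℝ)
    (hJt : Continuous Jt) (hOt : Continuous Ot)
    (hJ : ∀ t, Jt t * Jt t = -1)
    (hper : ∀ t, Jt (t + 1) = Jt t ∧ Ot (t + 1) = Ot t)
    (hpos : ∀ t, ∀ v : Fin 4 → ℝ, v ≠ 0 → v 0 = 0 → fvec (Jt t) ⬝ᵥ v = 0 →
      0 < v ⬝ᵥ (Ot t *ᵥ (Jt t *ᵥ v))) :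
    ∃ c : ℝ, ∀ t, ∀ v : Fin 4 → ℝ, v ≠ 0 →
      0 < v ⬝ᵥ (corrected c (Jt t) (Ot t) *ᵥ (Jt t *ᵥ v)) := by
  set K : Set (ℝ × (Fin 4 → ℝ)) := Set.Icc (0 : ℝ) 1 ×ˢ {v : Fin 4 → ℝ | v ⬝ᵥ v = 1} with hKdef
  have hK : IsCompact K := isCompact_Icc.prod isCompact_unitSphere
  have hJc : Continuous (fun p : ℝ × (Fin 4 → ℝ) => Jt p.1) := hJt.comp continuous_fst
  have hOc : Continuous (fun p : ℝ × (Fin 4 → ℝ) => Ot p.1) := hOt.comp continuous_fst
  have hac : Continuous (fun p : ℝ × (Fin 4 → ℝ) => avec (Jt p.1) (Ot p.1)) :=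
    (continuous_avec Jt Ot hJt hOt hJ).comp continuous_fst
  have hfc : Continuous (fun p : ℝ × (Fin 4 → ℝ) => fvec (Jt p.1)) :=
    (continuous_fvec Jt hJt).comp continuous_fst
  have hv0 : Continuous (fun p : ℝ × (Fin 4 → ℝ) => p.2 0) :=
    (continuous_apply 0).comp continuous_snd
  set Gf : ℝ × (Fin 4 → ℝ) → ℝ := fun p => p.2 ⬝ᵥ (Ot p.1 *ᵥ (Jt p.1 *ᵥ p.2))
    - 2 * (p.2 0 * (avec (Jt p.1) (Ot p.1) ⬝ᵥ (Jt p.1 *ᵥ p.2)))
    - 2 * ((avec (Jt p.1) (Ot p.1) ⬝ᵥ p.2) * (fvec (Jt p.1) ⬝ᵥ p.2)) with hGf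
  set qf : ℝ × (Fin 4 → ℝ) → ℝ := fun p => p.2 0 ^ 2 + (fvec (Jt p.1) ⬝ᵥ p.2) ^ 2 with hqf
  have hGc : Continuous Gf :=
    ((continuous_snd.dotProduct (hOc.matrix_mulVec (hJc.matrix_mulVec continuous_snd))).sub
      (continuous_const.mul (hv0.mul (hac.dotProduct (hJc.matrix_mulVec continuous_snd))))).sub
      (continuous_const.mul ((hac.dotProduct continuous_snd).mul
        (hfc.dotProduct continuous_snd)))
  have hqc : Continuous qf := (hv0.pow 2).add ((hfc.dotProduct continuous_snd).pow 2)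
  obtain ⟨c, hc⟩ := exists_c_of_compact K hK Gf qf hGc hqc (fun p _ => by positivity)
    (fun p hp hq => by
      have hpne : p.2 ≠ 0 := by
        intro h
        have h1 : p.2 ⬝ᵥ p.2 = 1 := hp.2
        rw [h] at h1
        simp at h1
      have h1 : p.2 0 = 0 := by
        have : p.2 0 ^ 2 = 0 := by
          have h2 : p.2 0 ^ 2 + (fvec (Jt p.1) ⬝ᵥ p.2) ^ 2 = 0 := hq
          nlinarith [sq_nonneg (p.2 0), sq_nonneg (fvec (Jt p.1) ⬝ᵥ p.2)]
        exact pow_eq_zero_iff (two_ne_zero) |>.mp this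
      have h2 : fvec (Jt p.1) ⬝ᵥ p.2 = 0 := by
        have : (fvec (Jt p.1) ⬝ᵥ p.2) ^ 2 = 0 := by
          have h2 : p.2 0 ^ 2 + (fvec (Jt p.1) ⬝ᵥ p.2) ^ 2 = 0 := hq
          nlinarith [sq_nonneg (p.2 0), sq_nonneg (fvec (Jt p.1) ⬝ᵥ p.2)]
        exact pow_eq_zero_iff (two_ne_zero) |>.mp this
      have h3 := hpos p.1 p.2 hpne h1 h2
      simp only [hGf, h1, h2]
      linarith)
  refine ⟨c, ?_⟩
  intro t v hv
  -- reduce `t` to one period
  have hF : Function.Periodic (fun t => (Jt t, Ot t)) 1 :=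
    fun t => Prod.ext (hper t).1 (hper t).2
  obtain ⟨t', ht', hFt⟩ := hF.exists_mem_Ico₀ one_pos t
  have hJt' : Jt t = Jt t' := congrArg Prod.fst hFt
  have hOt' : Ot t = Ot t' := congrArg Prod.snd hFt
  rw [hJt', hOt']
  -- normalise `v`
  have hn : 0 < v ⬝ᵥ v := dot_self_pos v hv
  set s := Real.sqrt (v ⬝ᵥ v) with hs
  have hs0 : 0 < s := Real.sqrt_pos.mpr hn
  have hss : s * s = v ⬝ᵥ v := Real.mul_self_sqrt hn.le
  have hwK : (t', s⁻¹ • v) ∈ K := by
    refine ⟨⟨ht'.1, ht'.2.le⟩, ?_⟩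
    change (s⁻¹ • v) ⬝ᵥ (s⁻¹ • v) = 1
    rw [smul_dotProduct, dotProduct_smul, smul_eq_mul, smul_eq_mul, ← hss]
    field_simp
  have h1 := hc (t', s⁻¹ • v) hwK
  have h2 := corrected_tame c (Jt t') (Ot t') (hJ t') (s⁻¹ • v)
  have h3 : (s⁻¹ • v) ⬝ᵥ (corrected c (Jt t') (Ot t') *ᵥ (Jt t' *ᵥ (s⁻¹ • v)))
      = s⁻¹ * s⁻¹ * (v ⬝ᵥ (corrected c (Jt t') (Ot t') *ᵥ (Jt t' *ᵥ v))) := by
    simp only [Matrix.mulVec_smul, smul_dotProduct, dotProduct_smul, smul_eq_mul]
    ring
  have h4 : 0 < (s⁻¹ • v) ⬝ᵥ (corrected c (Jt t') (Ot t') *ᵥ (Jt t' *ᵥ (s⁻¹ • v))) := by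
    rw [h2]
    have h5 : Gf (t', s⁻¹ • v) + c * qf (t', s⁻¹ • v)
        = (s⁻¹ • v) ⬝ᵥ (Ot t' *ᵥ (Jt t' *ᵥ (s⁻¹ • v)))
          - 2 * ((s⁻¹ • v) 0 * (avec (Jt t') (Ot t') ⬝ᵥ (Jt t' *ᵥ (s⁻¹ • v))))
          - 2 * ((avec (Jt t') (Ot t') ⬝ᵥ (s⁻¹ • v)) * (fvec (Jt t') ⬝ᵥ (s⁻¹ • v)))
          + c * ((s⁻¹ • v) 0 ^ 2 + (fvec (Jt t') ⬝ᵥ (s⁻¹ • v)) ^ 2) := rfl
    rw [← h5]
    exact h1
  rw [h3] at h4
  have h6 : 0 < s⁻¹ * s⁻¹ := by positivity
  exact (mul_pos_iff_of_pos_left h6).mp h4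

/-- Tamed-to-compatible on the four-torus for `T³`-invariant almost complex structures tamed by
an arbitrary (`ℤ⁴`-periodic) symplectic form. -/
theorem main_general (J om : (Fin 4 → ℝ) → Matrix (Fin 4) (Fin 4) ℝ)
    (hJs : SmoothField J) (hJ2 : ∀ x, J x * J x = -1) (hJinv : TorusInvariant J)
    (hos : SmoothField om) (hskew : ∀ x, (om x)ᵀ = -om x)
    (hoper : ∀ (x : Fin 4 → ℝ) (i : Fin 4), om (x + Pi.single i 1) = om x)
    (hclosed : IsClosedForm om) (htame : Tames om J) :
    ∃ om' : (Fin 4 → ℝ) → Matrix (Fin 4) (Fin 4) ℝ,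
      SmoothField om' ∧ (∀ x, (om' x)ᵀ = -om' x) ∧ TorusInvariant om' ∧ IsClosedForm om' ∧
      Tames om' J ∧ ∀ x, (J x)ᵀ * om' x * J x = om' x := by
  -- averaged coefficients
  set A : ℝ → Fin 4 → Fin 4 → ℝ := fun t a b => avg (fun x => om x a b) t with hA
  have hc1 : ∀ a b, ContDiff ℝ 1 (fun x => om x a b) := fun a b => (hos a b).of_le (by simp)
  have hcont : ∀ a b, Continuous (fun x => om x a b) := fun a b => (hos a b).continuous
  have homc : Continuous om := continuous_matrix (fun i j => hcont i j)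
  have hdc : ∀ a b i, Continuous (fun x => fderiv ℝ (fun y => om y a b) x (Pi.single i 1)) :=
    fun a b i => ((hc1 a b).continuous_fderiv one_ne_zero).clm_apply continuous_const
  -- the spatial coefficients of the average do not depend on the height
  have hconst : ∀ (ja jb : Fin 3) (t : ℝ), A t ja.succ jb.succ = A 0 ja.succ jb.succ := by
    intro ja jb t
    have hd : ∀ s, HasDerivAt (fun t => A t ja.succ jb.succ) 0 s := by
      intro s
      have h1 := hasDerivAt_avg (fun x => om x ja.succ jb.succ) (hc1 _ _) s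
      have h2 : avg (fun x => fderiv ℝ (fun y => om y ja.succ jb.succ) x (Pi.single 0 1)) s
          = 0 := by
        have e : (fun x => fderiv ℝ (fun y => om y ja.succ jb.succ) x (Pi.single 0 1))
            = fun x => -(fderiv ℝ (fun y => om y jb.succ 0) x (Pi.single ja.succ 1))
              + -(fderiv ℝ (fun y => om y 0 ja.succ) x (Pi.single jb.succ 1)) := by
          funext x
          have := hclosed x 0 ja.succ jb.succ
          unfold coordDeriv at this
          linarith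
        have k1 : Continuous (fun x => -(fderiv ℝ (fun y => om y jb.succ 0) x
            (Pi.single ja.succ 1))) := (hdc _ _ _).neg
        have k2 : Continuous (fun x => -(fderiv ℝ (fun y => om y 0 ja.succ) x
            (Pi.single jb.succ 1))) := (hdc _ _ _).neg
        rw [e, avg_add (fun x => -(fderiv ℝ (fun y => om y jb.succ 0) x (Pi.single ja.succ 1)))
            (fun x => -(fderiv ℝ (fun y => om y 0 ja.succ) x (Pi.single jb.succ 1))) k1 k2,
          avg_neg, avg_neg,
          avg_spatialDeriv _ (hc1 _ _) ja (fun x => by rw [hoper]) s,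
          avg_spatialDeriv _ (hc1 _ _) jb (fun x => by rw [hoper]) s]
        simp
      rw [h2] at h1
      exact h1
    exact is_const_of_deriv_eq_zero (fun s => (hd s).differentiableAt) (fun s => (hd s).deriv) t 0
  have hAskew : ∀ t a b, A t b a = -A t a b := by
    intro t a b
    simp only [hA]
    rw [← avg_neg]
    congr 1
    funext x
    have := congrFun (congrFun (hskew x) a) b
    simp only [Matrix.transpose_apply, Matrix.neg_apply] at this
    exact this
  -- the constant spatial form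
  set Om0 : Matrix (Fin 4) (Fin 4) ℝ :=
    Matrix.of (fun a b => if a ≠ 0 ∧ b ≠ 0 then A 0 a b else 0) with hOm0
  have hOm0skew : Om0ᵀ = -Om0 := by
    ext a b
    simp only [hOm0, Matrix.transpose_apply, Matrix.of_apply, Matrix.neg_apply]
    by_cases ha : a = 0
    · simp [ha]
    · by_cases hb : b = 0
      · simp [hb]
      · simp only [ha, hb, ne_eq, not_false_eq_true, and_self, if_true]
        exact hAskew 0 a b
  have hJline : ∀ (t : ℝ) (y : Fin 3 → ℝ), J (cons4 t y) = J (Pi.single 0 t) :=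
    fun t y => hJinv _ _ (Or.inl (by simp))
  have hplane : ∀ t, ∀ v : Fin 4 → ℝ, v ≠ 0 → v 0 = 0 → fvec (J (Pi.single 0 t)) ⬝ᵥ v = 0 →
      0 < v ⬝ᵥ (Om0 *ᵥ (J (Pi.single 0 t) *ᵥ v)) := by
    intro t v hv hv0 hfv
    obtain ⟨w, hw⟩ : ∃ w : Fin 4 → ℝ, w = J (Pi.single 0 t) *ᵥ v := ⟨_, rfl⟩
    rw [← hw]
    have hw0 : w 0 = 0 := by
      have := fvec_dot (J (Pi.single 0 t)) v
      rw [hfv, ← hw] at this
      linarith
    have e1 : v ⬝ᵥ (Om0 *ᵥ w) = avg (fun x => v ⬝ᵥ (om x *ᵥ w)) t := by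
      have e2 : (fun x => v ⬝ᵥ (om x *ᵥ w)) = fun x => ∑ a, ∑ b, (v a * w b) * om x a b := by
        funext x
        simp only [dotProduct, Matrix.mulVec, Finset.mul_sum]
        refine Finset.sum_congr rfl (fun a _ => Finset.sum_congr rfl (fun b _ => by ring))
      have k3 : ∀ a b, Continuous (fun x => (v a * w b) * om x a b) :=
        fun a b => continuous_const.mul (hcont a b)
      have k4 : ∀ a, Continuous (fun x => ∑ b, (v a * w b) * om x a b) :=
        fun a => continuous_finsetSum _ (fun b _ => k3 a b)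
      rw [e2, avg_sum Finset.univ (fun a x => ∑ b, (v a * w b) * om x a b) (fun a _ => k4 a)]
      simp only [dotProduct, Matrix.mulVec, Finset.mul_sum]
      refine Finset.sum_congr rfl (fun a _ => ?_)
      rw [avg_sum Finset.univ (fun b x => (v a * w b) * om x a b) (fun b _ => k3 a b)]
      refine Finset.sum_congr rfl (fun b _ => ?_)
      rw [avg_const_mul]
      by_cases ha : a = 0
      · subst ha
        rw [hv0]
        ring
      by_cases hb : b = 0
      · subst hb
        rw [hw0]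
        ring
      obtain ⟨ja, rfl⟩ := Fin.exists_succ_eq_of_ne_zero ha
      obtain ⟨jb, rfl⟩ := Fin.exists_succ_eq_of_ne_zero hb
      have h3 := hconst ja jb t
      simp only [hA] at h3
      simp only [hOm0, Matrix.of_apply, ha, hb, ne_eq, not_false_eq_true, and_self, if_true, hA]
      rw [h3]
      ring
    rw [e1]
    apply avg_pos
    · exact continuous_const.dotProduct (homc.matrix_mulVec continuous_const)
    · intro y
      have := htame (cons4 t y) v hv
      rw [hJline t y, ← hw] at this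
      exact this
  -- restriction to the `x 0`-axis
  have hline : Continuous (fun t : ℝ => (Pi.single 0 t : Fin 4 → ℝ)) := by
    refine continuous_pi (fun i => ?_)
    by_cases hi : i = 0
    · subst hi
      simp only [Pi.single_eq_same]
      exact continuous_id
    · simp only [Pi.single_eq_of_ne hi]
      exact continuous_const
  have hJc : Continuous (fun t : ℝ => J (Pi.single 0 t)) :=
    continuous_matrix (fun i j => (hJs i j).continuous.comp hline)
  have hJx : ∀ x : Fin 4 → ℝ, J (Pi.single 0 (x 0)) = J x :=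
    fun x => hJinv x _ (Or.inl (by simp))
  obtain ⟨c, hc⟩ := exists_uniform_c' (fun t : ℝ => J (Pi.single 0 t)) (fun _ => Om0) hJc
    continuous_const (fun t => hJ2 _) (fun t => ⟨hJinv _ _ (Or.inr (by simp)), rfl⟩) hplane
  have hinv' : TorusInvariant (fun x => corrected c (J x) Om0) := by
    intro x y hxy
    change corrected c (J y) Om0 = corrected c (J x) Om0
    rw [hJinv x y hxy]
  have hskew' : ∀ x, (corrected c (J x) Om0)ᵀ = -corrected c (J x) Om0 :=
    fun x => corrected_transpose c (J x) Om0 hOm0skew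
  refine ⟨fun x => corrected c (J x) Om0, ?_, hskew', hinv', ?_, ?_, ?_⟩
  · exact fun i j => contDiff_corrected c J (fun _ => Om0) hJs (fun _ _ => contDiff_const) hJ2 i j
  · apply closed_of_spatial _ hinv' hskew'
    intro x a b ha hb
    have h : (fun y => corrected c (J y) Om0 a b) = fun _ => Om0 a b :=
      funext (fun y => corrected_apply_of_ne c (J y) Om0 a b ha hb)
    rw [h]
    unfold coordDeriv
    simp
  · intro x v hv
    have := hc (x 0) v hv
    simp only [hJx] at this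
    exact this
  · exact fun x => corrected_inv c (J x) Om0 (hJ2 x) hOm0skew

end Vale.Agent.H55.Tamed
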