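import Mathlib

/-!
Definitions for translation-invariant almost complex structures and two-forms on the
four-torus `ℝ⁴/ℤ⁴`, written as fields of `4 × 4` real matrices on `ℝ⁴ = Fin 4 → ℝ`.
A field `om` stands for the bilinear form `om x (u, v) = ∑ i j, om x i j * u i * v j`.
-/

namespace Vale.Agent.H55.Tamed

open Matrix
open scoped ContDiff

/-- The partial derivative `∂f/∂xᵢ` of a function on `ℝ⁴`. -/
noncomputable def coordDeriv (i : Fin 4) (f : (Fin 4 → ℝ) → ℝ) (x : Fin 4 → ℝ) : ℝ :=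
  fderiv ℝ f x (Pi.single i 1)

/-- Every entry of the matrix field is a `C^∞` function on `ℝ⁴`. -/
def SmoothField (A : (Fin 4 → ℝ) → Matrix (Fin 4) (Fin 4) ℝ) : Prop :=
  ∀ i j : Fin 4, ContDiff ℝ ∞ (fun x => A x i j)

/-- The field depends only on the coordinate `x 0` and is `1`-periodic in it. Such a field is
invariant under all translations in the coordinates `x 1, x 2, x 3` and under `ℤ⁴`, so it is a
`T³`-invariant field on the torus `ℝ⁴/ℤ⁴`. -/
def TorusInvariant (A : (Fin 4 → ℝ) → Matrix (Fin 4) (Fin 4) ℝ) : Prop :=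
  ∀ x y : Fin 4 → ℝ, (y 0 = x 0 ∨ y 0 = x 0 + 1) → A y = A x

/-- The two-form with coefficient matrix `om` is closed: the cyclic sum
`∂ᵢ om_jk + ∂ⱼ om_ki + ∂ₖ om_ij` vanishes for all `i, j, k`. -/
def IsClosedForm (om : (Fin 4 → ℝ) → Matrix (Fin 4) (Fin 4) ℝ) : Prop :=
  ∀ (x : Fin 4 → ℝ) (i j k : Fin 4),
    coordDeriv i (fun y => om y j k) x + coordDeriv j (fun y => om y k i) x
      + coordDeriv k (fun y => om y i j) x = 0

/-- The form `om` tames `J`: `om (v, J v) > 0` for every nonzero tangent vector `v`. -/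
def Tames (om J : (Fin 4 → ℝ) → Matrix (Fin 4) (Fin 4) ℝ) : Prop :=
  ∀ (x v : Fin 4 → ℝ), v ≠ 0 → 0 < v ⬝ᵥ (om x *ᵥ (J x *ᵥ v))

end Vale.Agent.H55.Tamed
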