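import Vale.Agent.H55.TamedAnalysis
import Vale.Agent.H55.TamedDefs

/-!
Assembly: tamed-to-compatible for `T³`-invariant structures on the four-torus.
-/

namespace Vale.Agent.H55.Tamed

open Matrix
open scoped ContDiff

theorem coordDeriv_eq_zero_of_const (f : (Fin 4 → ℝ) → ℝ) (i : Fin 4) (x : Fin 4 → ℝ)
    (h : ∀ t : ℝ, f (x + t • Pi.single i 1) = f x) : coordDeriv i f x = 0 := by
  unfold coordDeriv
  by_cases hd : DifferentiableAt ℝ f x
  · rw [← hd.lineDeriv_eq_fderiv]
    unfold lineDeriv
    have : (fun t : ℝ => f (x + t • Pi.single i 1)) = fun _ => f x := funext h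
    rw [this]
    simp
  · rw [fderiv_zero_of_not_differentiableAt hd]
    simp

theorem coordDeriv_inv (A : (Fin 4 → ℝ) → Matrix (Fin 4) (Fin 4) ℝ) (hA : TorusInvariant A)
    (a b i : Fin 4) (hi : i ≠ 0) (x : Fin 4 → ℝ) :
    coordDeriv i (fun y => A y a b) x = 0 := by
  apply coordDeriv_eq_zero_of_const
  intro t
  have : A (x + t • Pi.single i 1) = A x := by
    apply hA
    left
    simp [hi.symm]
  rw [this]

theorem coordDeriv_skew (A : (Fin 4 → ℝ) → Matrix (Fin 4) (Fin 4) ℝ)
    (hskew : ∀ x, (A x)ᵀ = -A x) (a b i : Fin 4) (x : Fin 4 → ℝ) :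
    coordDeriv i (fun y => A y a b) x = -coordDeriv i (fun y => A y b a) x := by
  have h : (fun y => A y a b) = fun y => -A y b a := by
    funext y
    have := congrFun (congrFun (hskew y) b) a
    simp only [Matrix.transpose_apply, Matrix.neg_apply] at this
    linarith
  unfold coordDeriv
  rw [h, fderiv_fun_neg]
  simp

/-- A `T³`-invariant skew form is closed as soon as its spatial coefficients have vanishing
`x 0`-derivative. -/
theorem closed_of_spatial (A : (Fin 4 → ℝ) → Matrix (Fin 4) (Fin 4) ℝ) (hA : TorusInvariant A)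
    (hskew : ∀ x, (A x)ᵀ = -A x)
    (h0 : ∀ x a b, a ≠ 0 → b ≠ 0 → coordDeriv 0 (fun y => A y a b) x = 0) :
    IsClosedForm A := by
  intro x i j k
  by_cases hi : i = 0 <;> by_cases hj : j = 0 <;> by_cases hk : k = 0
  · subst hi hj hk
    have := coordDeriv_skew A hskew 0 0 0 x
    linarith
  · subst hi hj
    have h1 := coordDeriv_skew A hskew 0 k 0 x
    have h2 := coordDeriv_inv A hA 0 0 k hk x
    linarith
  · subst hi hk
    have h1 := coordDeriv_skew A hskew j 0 0 x
    have h2 := coordDeriv_inv A hA 0 0 j hj x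
    linarith
  · subst hi
    have h1 := h0 x j k hj hk
    have h2 := coordDeriv_inv A hA k 0 j hj x
    have h3 := coordDeriv_inv A hA 0 j k hk x
    linarith
  · subst hj hk
    have h1 := coordDeriv_inv A hA 0 0 i hi x
    have h2 := coordDeriv_skew A hskew 0 i 0 x
    linarith
  · subst hj
    have h1 := coordDeriv_inv A hA 0 k i hi x
    have h2 := h0 x k i hk hi
    have h3 := coordDeriv_inv A hA i 0 k hk x
    linarith
  · subst hk
    have h1 := coordDeriv_inv A hA j 0 i hi x
    have h2 := coordDeriv_inv A hA 0 i j hj x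
    have h3 := h0 x i j hi hj
    linarith
  · have h1 := coordDeriv_inv A hA j k i hi x
    have h2 := coordDeriv_inv A hA k i j hj x
    have h3 := coordDeriv_inv A hA i j k hk x
    linarith

/-- Conversely, closedness of a `T³`-invariant form forces the spatial coefficients to have
vanishing `x 0`-derivative. -/
theorem spatial_of_closed (A : (Fin 4 → ℝ) → Matrix (Fin 4) (Fin 4) ℝ) (hA : TorusInvariant A)
    (hcl : IsClosedForm A) (x : Fin 4 → ℝ) (a b : Fin 4) (ha : a ≠ 0) (hb : b ≠ 0) :
    coordDeriv 0 (fun y => A y a b) x = 0 := by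
  have h := hcl x 0 a b
  have h2 := coordDeriv_inv A hA b 0 a ha x
  have h3 := coordDeriv_inv A hA 0 a b hb x
  linarith

/-- Tamed-to-compatible for `T³`-invariant structures on the four-torus. -/
theorem main (J om : (Fin 4 → ℝ) → Matrix (Fin 4) (Fin 4) ℝ)
    (hJs : SmoothField J) (hJ2 : ∀ x, J x * J x = -1) (hJinv : TorusInvariant J)
    (hos : SmoothField om) (hskew : ∀ x, (om x)ᵀ = -om x) (hoinv : TorusInvariant om)
    (hclosed : IsClosedForm om) (htame : Tames om J) :
    ∃ om' : (Fin 4 → ℝ) → Matrix (Fin 4) (Fin 4) ℝ,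
      SmoothField om' ∧ (∀ x, (om' x)ᵀ = -om' x) ∧ TorusInvariant om' ∧ IsClosedForm om' ∧
      Tames om' J ∧ ∀ x, (J x)ᵀ * om' x * J x = om' x := by
  -- restriction to the `x 0`-axis
  have hline : Continuous (fun t : ℝ => (Pi.single 0 t : Fin 4 → ℝ)) := by
    refine continuous_pi (fun i => ?_)
    by_cases hi : i = 0
    · subst hi
      simp only [Pi.single_eq_same]
      exact continuous_id
    · simp only [Pi.single_eq_of_ne hi]
      exact continuous_const
  have hJc : Continuous (fun t : ℝ => J (Pi.single 0 t)) :=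
    continuous_matrix (fun i j => (hJs i j).continuous.comp hline)
  have hOc : Continuous (fun t : ℝ => om (Pi.single 0 t)) :=
    continuous_matrix (fun i j => (hos i j).continuous.comp hline)
  have hJx : ∀ x : Fin 4 → ℝ, J (Pi.single 0 (x 0)) = J x :=
    fun x => hJinv x _ (Or.inl (by simp))
  have hOx : ∀ x : Fin 4 → ℝ, om (Pi.single 0 (x 0)) = om x :=
    fun x => hoinv x _ (Or.inl (by simp))
  obtain ⟨c, hc⟩ := exists_uniform_c (fun t : ℝ => J (Pi.single 0 t))
    (fun t : ℝ => om (Pi.single 0 t)) hJc hOc (fun t => hJ2 _)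
    (fun t => ⟨hJinv _ _ (Or.inr (by simp)), hoinv _ _ (Or.inr (by simp))⟩)
    (fun t v hv => htame _ v hv)
  have hinv' : TorusInvariant (fun x => corrected c (J x) (om x)) := by
    intro x y hxy
    change corrected c (J y) (om y) = corrected c (J x) (om x)
    rw [hJinv x y hxy, hoinv x y hxy]
  have hskew' : ∀ x, (corrected c (J x) (om x))ᵀ = -corrected c (J x) (om x) :=
    fun x => corrected_transpose c (J x) (om x) (hskew x)
  refine ⟨fun x => corrected c (J x) (om x), ?_, hskew', hinv', ?_, ?_, ?_⟩
  · exact fun i j => contDiff_corrected c J om hJs hos hJ2 i j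
  · apply closed_of_spatial _ hinv' hskew'
    intro x a b ha hb
    have h : (fun y => corrected c (J y) (om y) a b) = fun y => om y a b :=
      funext (fun y => corrected_apply_of_ne c (J y) (om y) a b ha hb)
    rw [h]
    exact spatial_of_closed om hoinv hclosed x a b ha hb
  · intro x v hv
    have := hc (x 0) v hv
    simp only [hJx, hOx] at this
    exact this
  · exact fun x => corrected_inv c (J x) (om x) (hJ2 x) (hskew x)

end Vale.Agent.H55.Tamed
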