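import Vale.Agent.H55.TamedLinAlg

/-!
Uniform positivity (by compactness) and smoothness of the corrected form.
-/

namespace Vale.Agent.H55.Tamed

open Matrix

/-- Pointwise positivity of the corrected form from quantitative bounds. -/
theorem corrected_pos (c lam M : ℝ) (J Om : Matrix (Fin 4) (Fin 4) ℝ) (hJ : J * J = -1)
    (v : Fin 4 → ℝ)
    (hlam : lam * (v ⬝ᵥ v) ≤ v ⬝ᵥ (Om *ᵥ (J *ᵥ v)))
    (hM : (avec J Om ⬝ᵥ (J *ᵥ v)) ^ 2 + (avec J Om ⬝ᵥ v) ^ 2 ≤ M * (v ⬝ᵥ v))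
    (hc : 0 < c) (hcl : M < c * lam) (hv : 0 < v ⬝ᵥ v) :
    0 < v ⬝ᵥ (corrected c J Om *ᵥ (J *ᵥ v)) := by
  rw [corrected_tame c J Om hJ v]
  set Q := v ⬝ᵥ (Om *ᵥ (J *ᵥ v))
  set α := avec J Om ⬝ᵥ (J *ᵥ v)
  set β := avec J Om ⬝ᵥ v
  set p := v 0
  set q := fvec J ⬝ᵥ v
  set n := v ⬝ᵥ v
  have h1 : 0 < c * (Q - 2 * (p * α) - 2 * (β * q) + c * (p ^ 2 + q ^ 2)) := by
    have e : c * (Q - 2 * (p * α) - 2 * (β * q) + c * (p ^ 2 + q ^ 2))
        = c * Q + (c * p - α) ^ 2 + (c * q - β) ^ 2 - (α ^ 2 + β ^ 2) := by ring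
    rw [e]
    have h2 : c * (lam * n) ≤ c * Q := mul_le_mul_of_nonneg_left hlam hc.le
    have h3 : 0 < (c * lam - M) * n := mul_pos (by linarith) hv
    nlinarith [sq_nonneg (c * p - α), sq_nonneg (c * q - β)]
  exact (mul_pos_iff_of_pos_left hc).mp h1

theorem dot_self_nonneg (v : Fin 4 → ℝ) : 0 ≤ v ⬝ᵥ v :=
  Finset.sum_nonneg (fun i _ => mul_self_nonneg (v i))

theorem dot_self_pos (v : Fin 4 → ℝ) (hv : v ≠ 0) : 0 < v ⬝ᵥ v := by
  rcases (dot_self_nonneg v).lt_or_eq with h | h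
  · exact h
  · exact absurd (dotProduct_self_eq_zero.mp h.symm) hv

/-- The Euclidean unit sphere of `Fin 4 → ℝ` is compact. -/
theorem isCompact_unitSphere : IsCompact {v : Fin 4 → ℝ | v ⬝ᵥ v = 1} := by
  apply Metric.isCompact_of_isClosed_isBounded
  · exact isClosed_eq (by fun_prop) continuous_const
  · apply (Metric.isBounded_closedBall (x := (0 : Fin 4 → ℝ)) (r := 1)).subset
    intro v hv
    change v ⬝ᵥ v = 1 at hv
    rw [mem_closedBall_zero_iff, pi_norm_le_iff_of_nonneg zero_le_one]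
    intro i
    rw [Real.norm_eq_abs, abs_le_one_iff_mul_self_le_one]
    have : v i * v i ≤ ∑ j, v j * v j :=
      Finset.single_le_sum (f := fun j => v j * v j) (fun j _ => mul_self_nonneg (v j))
        (Finset.mem_univ i)
    have h2 : ∑ j, v j * v j = 1 := hv
    linarith


theorem continuous_Xvec {T : Type*} [TopologicalSpace T] (Jt : T → Matrix (Fin 4) (Fin 4) ℝ)
    (hJt : Continuous Jt) (hJ : ∀ t, Jt t * Jt t = -1) :
    Continuous (fun t => Xvec (Jt t)) := by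
  refine continuous_pi (fun j => ?_)
  by_cases hj : j = 0
  · subst hj
    simp only [Xvec, if_true]
    exact continuous_const
  · simp only [Xvec, hj, if_false]
    refine Continuous.div ?_ ?_ (fun t => (delta_pos (Jt t) (hJ t)).ne')
    · exact ((hJt.matrix_elem 0 0).mul (hJt.matrix_elem 0 j)).neg
    · unfold delta
      exact (((hJt.matrix_elem 0 1).pow 2).add ((hJt.matrix_elem 0 2).pow 2)).add
        ((hJt.matrix_elem 0 3).pow 2)

theorem continuous_avec {T : Type*} [TopologicalSpace T] (Jt Ot : T → Matrix (Fin 4) (Fin 4) ℝ)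
    (hJt : Continuous Jt) (hOt : Continuous Ot) (hJ : ∀ t, Jt t * Jt t = -1) :
    Continuous (fun t => avec (Jt t) (Ot t)) := by
  unfold avec antiPart
  have h1 : Continuous (fun t => Ot t - (Jt t)ᵀ * Ot t * Jt t) :=
    hOt.sub ((hJt.matrix_transpose.matrix_mul hOt).matrix_mul hJt)
  have h2 : Continuous (fun t => (1 / 2 : ℝ) • (Ot t - (Jt t)ᵀ * Ot t * Jt t)) :=
    h1.const_smul (1 / 2 : ℝ)
  exact (continuous_Xvec Jt hJt hJ).matrix_vecMul h2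

/-- A single constant `c` makes the corrected form taming for all parameters, by compactness of
one period times the unit sphere. -/
theorem exists_uniform_c (Jt Ot : ℝ → Matrix (Fin 4) (Fin 4) ℝ)
    (hJt : Continuous Jt) (hOt : Continuous Ot)
    (hJ : ∀ t, Jt t * Jt t = -1)
    (hper : ∀ t, Jt (t + 1) = Jt t ∧ Ot (t + 1) = Ot t)
    (htame : ∀ t, ∀ v : Fin 4 → ℝ, v ≠ 0 → 0 < v ⬝ᵥ (Ot t *ᵥ (Jt t *ᵥ v))) :
    ∃ c : ℝ, ∀ t, ∀ v : Fin 4 → ℝ, v ≠ 0 →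
      0 < v ⬝ᵥ (corrected c (Jt t) (Ot t) *ᵥ (Jt t *ᵥ v)) := by
  set K : Set (ℝ × (Fin 4 → ℝ)) := Set.Icc (0 : ℝ) 1 ×ˢ {v : Fin 4 → ℝ | v ⬝ᵥ v = 1} with hKdef
  have hK : IsCompact K := isCompact_Icc.prod isCompact_unitSphere
  have hne : K.Nonempty := by
    refine ⟨(0, Pi.single 0 1), ?_⟩
    refine ⟨⟨le_refl _, zero_le_one⟩, ?_⟩
    change (Pi.single 0 1 : Fin 4 → ℝ) ⬝ᵥ Pi.single 0 1 = 1
    simp
  set Qf : ℝ × (Fin 4 → ℝ) → ℝ := fun p => p.2 ⬝ᵥ (Ot p.1 *ᵥ (Jt p.1 *ᵥ p.2)) with hQf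
  set Bf : ℝ × (Fin 4 → ℝ) → ℝ := fun p =>
    (avec (Jt p.1) (Ot p.1) ⬝ᵥ (Jt p.1 *ᵥ p.2)) ^ 2 + (avec (Jt p.1) (Ot p.1) ⬝ᵥ p.2) ^ 2 with hBf
  have hJc : Continuous (fun p : ℝ × (Fin 4 → ℝ) => Jt p.1) := hJt.comp continuous_fst
  have hOc : Continuous (fun p : ℝ × (Fin 4 → ℝ) => Ot p.1) := hOt.comp continuous_fst
  have hac : Continuous (fun p : ℝ × (Fin 4 → ℝ) => avec (Jt p.1) (Ot p.1)) :=
    (continuous_avec Jt Ot hJt hOt hJ).comp continuous_fst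
  have hQc : Continuous Qf :=
    continuous_snd.dotProduct (hOc.matrix_mulVec (hJc.matrix_mulVec continuous_snd))
  have hBc : Continuous Bf :=
    ((hac.dotProduct (hJc.matrix_mulVec continuous_snd)).pow 2).add
      ((hac.dotProduct continuous_snd).pow 2)
  obtain ⟨p0, hp0K, hp0min⟩ := hK.exists_isMinOn hne hQc.continuousOn
  obtain ⟨p1, hp1K, hp1max⟩ := hK.exists_isMaxOn hne hBc.continuousOn
  have hp0ne : p0.2 ≠ 0 := by
    intro h
    have h1 : p0.2 ⬝ᵥ p0.2 = 1 := hp0K.2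
    rw [h] at h1
    simp at h1
  have hlam : 0 < Qf p0 := htame p0.1 p0.2 hp0ne
  have hM : 0 ≤ Bf p1 := by positivity
  refine ⟨(Bf p1 + 1) / Qf p0, ?_⟩
  intro t v hv
  -- reduce `t` to one period
  have hF : Function.Periodic (fun t => (Jt t, Ot t)) 1 :=
    fun t => Prod.ext (hper t).1 (hper t).2
  obtain ⟨t', ht', hFt⟩ := hF.exists_mem_Ico₀ one_pos t
  have hJt' : Jt t = Jt t' := congrArg Prod.fst hFt
  have hOt' : Ot t = Ot t' := congrArg Prod.snd hFt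
  rw [hJt', hOt']
  -- normalise `v`
  have hn : 0 < v ⬝ᵥ v := dot_self_pos v hv
  set s := Real.sqrt (v ⬝ᵥ v) with hs
  have hs0 : 0 < s := Real.sqrt_pos.mpr hn
  have hss : s * s = v ⬝ᵥ v := Real.mul_self_sqrt hn.le
  have hwK : (t', s⁻¹ • v) ∈ K := by
    refine ⟨⟨ht'.1, ht'.2.le⟩, ?_⟩
    change (s⁻¹ • v) ⬝ᵥ (s⁻¹ • v) = 1
    rw [smul_dotProduct, dotProduct_smul, smul_eq_mul, smul_eq_mul, ← hss]
    field_simp
  have h1 : Qf p0 ≤ Qf (t', s⁻¹ • v) := hp0min hwK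
  have h2 : Bf (t', s⁻¹ • v) ≤ Bf p1 := hp1max hwK
  have e1 : Qf (t', s⁻¹ • v) = s⁻¹ * s⁻¹ * (v ⬝ᵥ (Ot t' *ᵥ (Jt t' *ᵥ v))) := by
    simp only [hQf, Matrix.mulVec_smul, smul_dotProduct, dotProduct_smul, smul_eq_mul]
    ring
  have e2 : Bf (t', s⁻¹ • v) = s⁻¹ * s⁻¹ * ((avec (Jt t') (Ot t') ⬝ᵥ (Jt t' *ᵥ v)) ^ 2
      + (avec (Jt t') (Ot t') ⬝ᵥ v) ^ 2) := by
    simp only [hBf, Matrix.mulVec_smul, dotProduct_smul, smul_eq_mul]
    ring
  have hsi : s⁻¹ * s⁻¹ * (v ⬝ᵥ v) = 1 := by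
    rw [← hss]; field_simp
  apply corrected_pos ((Bf p1 + 1) / Qf p0) (Qf p0) (Bf p1) (Jt t') (Ot t') (hJ t') v
  · rw [e1] at h1
    have := mul_le_mul_of_nonneg_right h1 hn.le
    calc Qf p0 * (v ⬝ᵥ v) ≤ s⁻¹ * s⁻¹ * (v ⬝ᵥ (Ot t' *ᵥ (Jt t' *ᵥ v))) * (v ⬝ᵥ v) := this
      _ = (s⁻¹ * s⁻¹ * (v ⬝ᵥ v)) * (v ⬝ᵥ (Ot t' *ᵥ (Jt t' *ᵥ v))) := by ring
      _ = v ⬝ᵥ (Ot t' *ᵥ (Jt t' *ᵥ v)) := by rw [hsi, one_mul]
  · rw [e2] at h2
    have := mul_le_mul_of_nonneg_right h2 hn.le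
    calc (avec (Jt t') (Ot t') ⬝ᵥ (Jt t' *ᵥ v)) ^ 2 + (avec (Jt t') (Ot t') ⬝ᵥ v) ^ 2
        = (s⁻¹ * s⁻¹ * (v ⬝ᵥ v)) * ((avec (Jt t') (Ot t') ⬝ᵥ (Jt t' *ᵥ v)) ^ 2
          + (avec (Jt t') (Ot t') ⬝ᵥ v) ^ 2) := by rw [hsi, one_mul]
      _ = s⁻¹ * s⁻¹ * ((avec (Jt t') (Ot t') ⬝ᵥ (Jt t' *ᵥ v)) ^ 2
          + (avec (Jt t') (Ot t') ⬝ᵥ v) ^ 2) * (v ⬝ᵥ v) := by ring
      _ ≤ Bf p1 * (v ⬝ᵥ v) := this
  · positivity
  · rw [div_mul_cancel₀ _ hlam.ne']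
    linarith
  · exact hn


/-- Smoothness of the entries of the corrected form. -/
theorem contDiff_corrected {E : Type*} [NormedAddCommGroup E] [NormedSpace ℝ E]
    {n : WithTop ℕ∞} (c : ℝ) (J Om : E → Matrix (Fin 4) (Fin 4) ℝ)
    (hJs : ∀ i j, ContDiff ℝ n (fun x => J x i j))
    (hOs : ∀ i j, ContDiff ℝ n (fun x => Om x i j))
    (hJ : ∀ x, J x * J x = -1) (i j : Fin 4) :
    ContDiff ℝ n (fun x => corrected c (J x) (Om x) i j) := by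
  have hX : ∀ k, ContDiff ℝ n (fun x => Xvec (J x) k) := by
    intro k
    by_cases hk : k = 0
    · subst hk
      simp only [Xvec, if_true]
      exact contDiff_const
    · simp only [Xvec, hk, if_false]
      refine ContDiff.div ?_ ?_ (fun x => (delta_pos (J x) (hJ x)).ne')
      · exact ((hJs 0 0).mul (hJs 0 k)).neg
      · unfold delta
        exact (((hJs 0 1).pow 2).add ((hJs 0 2).pow 2)).add ((hJs 0 3).pow 2)
  have hP : ∀ k l, ContDiff ℝ n (fun x => antiPart (J x) (Om x) k l) := by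
    intro k l
    simp only [antiPart, Matrix.smul_apply, Matrix.sub_apply, Matrix.mul_apply,
      Matrix.transpose_apply, smul_eq_mul]
    exact contDiff_const.mul ((hOs k l).sub
      (ContDiff.sum (fun m _ => (ContDiff.sum (fun l' _ => (hJs l' k).mul (hOs l' m))).mul
        (hJs m l))))
  have ha : ∀ l, ContDiff ℝ n (fun x => avec (J x) (Om x) l) := by
    intro l
    simp only [avec, Matrix.vecMul, dotProduct]
    exact ContDiff.sum (fun k _ => (hX k).mul (hP k l))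
  have hf : ∀ l, ContDiff ℝ n (fun x => fvec (J x) l) := fun l => (hJs 0 l).neg
  simp only [corrected, wedge, Matrix.add_apply, Matrix.sub_apply, Matrix.smul_apply,
    Matrix.vecMulVec_apply, smul_eq_mul]
  exact ((hOs i j).sub (contDiff_const.mul ((contDiff_const.mul (ha j)).sub
    ((ha i).mul contDiff_const)))).add
    (contDiff_const.mul ((contDiff_const.mul (hf j)).sub ((hf i).mul contDiff_const)))

end Vale.Agent.H55.Tamed
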