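import Mathlib

/-!
Pointwise linear algebra for the tamed-to-compatible construction on `ℝ⁴`.
-/

namespace Vale.Agent.H55.Tamed

open Matrix

/-- Linear independence of `X, JX, u, Ju` when `u` is not in the span of `X, JX`. -/
theorem linInd_of_not_mem (J : Matrix (Fin 4) (Fin 4) ℝ) (hJ : J * J = -1)
    (X u : Fin 4 → ℝ) (hX : X ≠ 0)
    (hu : ¬ ∃ α β : ℝ, u = α • X + β • (J *ᵥ X)) :
    LinearIndependent ℝ ![X, J *ᵥ X, u, J *ᵥ u] := by
  have hJJ : ∀ v : Fin 4 → ℝ, J *ᵥ (J *ᵥ v) = -v := by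
    intro v
    rw [Matrix.mulVec_mulVec, hJ, Matrix.neg_mulVec, Matrix.one_mulVec]
  rw [Fintype.linearIndependent_iff]
  intro g hg
  simp only [Fin.sum_univ_four, Matrix.cons_val_zero, Matrix.cons_val_one] at hg
  have hg' : g 0 • X + g 1 • J *ᵥ X + g 2 • u + g 3 • J *ᵥ u = 0 := by
    simpa using hg
  have hg2 : g 0 • J *ᵥ X - g 1 • X + g 2 • J *ᵥ u - g 3 • u = 0 := by
    have h := congrArg (fun v => J *ᵥ v) hg'
    simp only [Matrix.mulVec_add, Matrix.mulVec_smul, hJJ, Matrix.mulVec_zero] at h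
    rw [← h]
    module
  have key : (g 2 ^ 2 + g 3 ^ 2) • u
      = (-(g 2 * g 0 + g 3 * g 1)) • X + (-(g 2 * g 1 - g 3 * g 0)) • (J *ᵥ X) := by
    linear_combination (norm := module) (g 2) • hg' - (g 3) • hg2
  have h23 : g 2 ^ 2 + g 3 ^ 2 = 0 := by
    by_contra hne
    apply hu
    refine ⟨(g 2 ^ 2 + g 3 ^ 2)⁻¹ * (-(g 2 * g 0 + g 3 * g 1)),
      (g 2 ^ 2 + g 3 ^ 2)⁻¹ * (-(g 2 * g 1 - g 3 * g 0)), ?_⟩
    have := congrArg (fun v => (g 2 ^ 2 + g 3 ^ 2)⁻¹ • v) key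
    simp only [smul_smul, inv_mul_cancel₀ hne, one_smul, smul_add] at this
    exact this
  have h2 : g 2 = 0 := by nlinarith [sq_nonneg (g 2), sq_nonneg (g 3)]
  have h3 : g 3 = 0 := by nlinarith [sq_nonneg (g 2), sq_nonneg (g 3)]
  rw [h2, h3] at hg' hg2
  simp only [zero_smul, add_zero, sub_zero] at hg' hg2
  have key2 : (g 0 ^ 2 + g 1 ^ 2) • X = 0 := by
    linear_combination (norm := module) (g 0) • hg' - (g 1) • hg2
  have h01 : g 0 ^ 2 + g 1 ^ 2 = 0 := by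
    rcases smul_eq_zero.mp key2 with h | h
    · exact h
    · exact absurd h hX
  have h0 : g 0 = 0 := by nlinarith [sq_nonneg (g 0), sq_nonneg (g 1)]
  have h1 : g 1 = 0 := by nlinarith [sq_nonneg (g 0), sq_nonneg (g 1)]
  intro i
  fin_cases i <;> simp [h0, h1, h2, h3]


/-- A skew, `J`-anti-invariant form on `ℝ⁴` whose contraction with a nonzero vector vanishes is zero. -/
theorem eq_zero_of_antiInv (J D : Matrix (Fin 4) (Fin 4) ℝ) (hJ : J * J = -1)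
    (hD : Dᵀ = -D) (hDJ : Jᵀ * D * J = -D) (X : Fin 4 → ℝ) (hX : X ≠ 0)
    (hXD : X ᵥ* D = 0) : D = 0 := by
  have hJJ : ∀ v : Fin 4 → ℝ, J *ᵥ (J *ᵥ v) = -v := by
    intro v
    rw [Matrix.mulVec_mulVec, hJ, Matrix.neg_mulVec, Matrix.one_mulVec]
  have hJT : Jᵀ * Jᵀ = -1 := by
    rw [← Matrix.transpose_mul, hJ]; simp
  -- `D X = 0`
  have hDX : D *ᵥ X = 0 := by
    have h : X ᵥ* Dᵀ = D *ᵥ X := Matrix.vecMul_transpose D X
    rw [← h, hD, Matrix.vecMul_neg, hXD, neg_zero]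
  -- `D J = Jᵀ D`
  have hcomm : D * J = Jᵀ * D := by
    have h := congrArg (fun M => Jᵀ * M) hDJ
    simp only [← Matrix.mul_assoc, hJT] at h
    simp only [Matrix.neg_mul, Matrix.one_mul, Matrix.mul_neg] at h
    exact neg_injective h
  have hDJX : D *ᵥ (J *ᵥ X) = 0 := by
    rw [Matrix.mulVec_mulVec, hcomm, ← Matrix.mulVec_mulVec, hDX, Matrix.mulVec_zero]
  -- skewness as a bilinear identity
  have hskew : ∀ a b : Fin 4 → ℝ, a ⬝ᵥ (D *ᵥ b) = -(b ⬝ᵥ (D *ᵥ a)) := by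
    intro a b
    have h1 : a ⬝ᵥ (D *ᵥ b) = (a ᵥ* D) ⬝ᵥ b := Matrix.dotProduct_mulVec a D b
    have h2 : a ᵥ* D = Dᵀ *ᵥ a := (Matrix.mulVec_transpose D a).symm
    rw [h1, h2, hD, Matrix.neg_mulVec, neg_dotProduct, dotProduct_comm]
  have hmain : ∀ u : Fin 4 → ℝ, D *ᵥ u = 0 := by
    intro u
    by_cases hu : ∃ α β : ℝ, u = α • X + β • (J *ᵥ X)
    · obtain ⟨α, β, rfl⟩ := hu
      rw [Matrix.mulVec_add, Matrix.mulVec_smul, Matrix.mulVec_smul, hDX, hDJX]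
      simp
    · have hli := linInd_of_not_mem J hJ X u hX hu
      have hspan := hli.span_eq_top_of_card_eq_finrank' (by simp)
      set w := D *ᵥ u with hw
      have h1 : w ⬝ᵥ X = 0 := by
        rw [dotProduct_comm, hw, hskew, hDX]; simp
      have h2 : w ⬝ᵥ (J *ᵥ X) = 0 := by
        rw [dotProduct_comm, hw, hskew, hDJX]; simp
      have h3 : w ⬝ᵥ u = 0 := by
        have := hskew u u
        rw [dotProduct_comm, hw]; linarith
      have h4 : w ⬝ᵥ (J *ᵥ u) = 0 := by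
        have ha : (J *ᵥ u) ⬝ᵥ (D *ᵥ u) = u ⬝ᵥ (D *ᵥ (J *ᵥ u)) := by
          calc (J *ᵥ u) ⬝ᵥ (D *ᵥ u) = (u ᵥ* Jᵀ) ⬝ᵥ (D *ᵥ u) := by rw [Matrix.vecMul_transpose]
            _ = u ⬝ᵥ (Jᵀ *ᵥ (D *ᵥ u)) := (Matrix.dotProduct_mulVec u Jᵀ (D *ᵥ u)).symm
            _ = u ⬝ᵥ (D *ᵥ (J *ᵥ u)) := by
              rw [Matrix.mulVec_mulVec, ← hcomm, ← Matrix.mulVec_mulVec]
        have hb := hskew u (J *ᵥ u)
        rw [dotProduct_comm, hw]; linarith
      have hall : ∀ y ∈ Submodule.span ℝ (Set.range ![X, J *ᵥ X, u, J *ᵥ u]), w ⬝ᵥ y = 0 := by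
        intro y hy
        induction hy using Submodule.span_induction with
        | mem y hy =>
          obtain ⟨i, rfl⟩ := hy
          fin_cases i
          · exact h1
          · exact h2
          · exact h3
          · exact h4
        | zero => simp
        | add a b _ _ ha hb => rw [dotProduct_add, ha, hb, add_zero]
        | smul c a _ ha => rw [dotProduct_smul, ha, smul_zero]
      have hww : w ⬝ᵥ w = 0 := hall w (by rw [hspan]; trivial)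
      exact dotProduct_self_eq_zero.mp hww
  ext i j
  have := congrFun (hmain (Pi.single j 1)) i
  simpa using this


/-- The coordinate covector `dx₀`, as a vector. -/
def e0 : Fin 4 → ℝ := Pi.single 0 1

/-- The covector `f = -dx₀ ∘ J`. -/
def fvec (J : Matrix (Fin 4) (Fin 4) ℝ) : Fin 4 → ℝ := fun j => -J 0 j

/-- Squared length of the spatial part of the covector `dx₀ ∘ J`. -/
def delta (J : Matrix (Fin 4) (Fin 4) ℝ) : ℝ := J 0 1 ^ 2 + J 0 2 ^ 2 + J 0 3 ^ 2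

/-- A vector `X` with `dx₀ X = 1` and `dx₀ (J X) = 0`. -/
noncomputable def Xvec (J : Matrix (Fin 4) (Fin 4) ℝ) : Fin 4 → ℝ :=
  fun j => if j = 0 then 1 else -(J 0 0 * J 0 j) / delta J

/-- The `J`-anti-invariant part of a bilinear form. -/
noncomputable def antiPart (J Om : Matrix (Fin 4) (Fin 4) ℝ) : Matrix (Fin 4) (Fin 4) ℝ :=
  (1 / 2 : ℝ) • (Om - Jᵀ * Om * J)

/-- The contraction of the anti-invariant part with `X`. -/
noncomputable def avec (J Om : Matrix (Fin 4) (Fin 4) ℝ) : Fin 4 → ℝ :=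
  Xvec J ᵥ* antiPart J Om

/-- The wedge product of two covectors, as a skew matrix. -/
def wedge (a b : Fin 4 → ℝ) : Matrix (Fin 4) (Fin 4) ℝ := vecMulVec a b - vecMulVec b a

/-- The corrected form `Om - 2 dx₀ ∧ a + c dx₀ ∧ f`. -/
noncomputable def corrected (c : ℝ) (J Om : Matrix (Fin 4) (Fin 4) ℝ) :
    Matrix (Fin 4) (Fin 4) ℝ :=
  Om - (2 : ℝ) • wedge e0 (avec J Om) + c • wedge e0 (fvec J)

theorem delta_pos (J : Matrix (Fin 4) (Fin 4) ℝ) (hJ : J * J = -1) : 0 < delta J := by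
  have h := congrFun (congrFun hJ 0) 0
  simp only [Matrix.mul_apply, Fin.sum_univ_four, Matrix.neg_apply, Matrix.one_apply_eq] at h
  unfold delta
  by_contra hneg
  have h1 : J 0 1 = 0 := by nlinarith [sq_nonneg (J 0 1), sq_nonneg (J 0 2), sq_nonneg (J 0 3)]
  have h2 : J 0 2 = 0 := by nlinarith [sq_nonneg (J 0 1), sq_nonneg (J 0 2), sq_nonneg (J 0 3)]
  have h3 : J 0 3 = 0 := by nlinarith [sq_nonneg (J 0 1), sq_nonneg (J 0 2), sq_nonneg (J 0 3)]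
  rw [h1, h2, h3] at h
  nlinarith [sq_nonneg (J 0 0)]

theorem e0_dot (v : Fin 4 → ℝ) : e0 ⬝ᵥ v = v 0 := by
  simp [e0]

theorem dot_e0 (v : Fin 4 → ℝ) : v ⬝ᵥ e0 = v 0 := by
  simp [e0]

theorem fvec_dot (J : Matrix (Fin 4) (Fin 4) ℝ) (v : Fin 4 → ℝ) :
    fvec J ⬝ᵥ v = -(J *ᵥ v) 0 := by
  simp [fvec, dotProduct, Matrix.mulVec, Fin.sum_univ_four]

theorem Xvec_zero (J : Matrix (Fin 4) (Fin 4) ℝ) : Xvec J 0 = 1 := by
  simp [Xvec]

theorem Xvec_ne_zero (J : Matrix (Fin 4) (Fin 4) ℝ) : Xvec J ≠ 0 := by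
  intro h
  have := congrFun h 0
  rw [Xvec_zero] at this
  simp at this

theorem fvec_dot_Xvec (J : Matrix (Fin 4) (Fin 4) ℝ) (hJ : J * J = -1) :
    fvec J ⬝ᵥ Xvec J = 0 := by
  have hd := (delta_pos J hJ).ne'
  simp only [fvec, Xvec, dotProduct, Fin.sum_univ_four]
  simp only [Fin.reduceEq, if_true, if_false]
  unfold delta at hd ⊢
  field_simp
  ring

theorem JT_e0 (J : Matrix (Fin 4) (Fin 4) ℝ) : Jᵀ *ᵥ e0 = -fvec J := by
  ext j
  simp [e0, fvec, Matrix.mulVec, dotProduct, Pi.single_apply]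

theorem JT_JT (J : Matrix (Fin 4) (Fin 4) ℝ) (hJ : J * J = -1) : Jᵀ * Jᵀ = -1 := by
  rw [← Matrix.transpose_mul, hJ]; simp

theorem JT_fvec (J : Matrix (Fin 4) (Fin 4) ℝ) (hJ : J * J = -1) : Jᵀ *ᵥ fvec J = e0 := by
  have h : fvec J = -(Jᵀ *ᵥ e0) := by rw [JT_e0]; simp
  rw [h, Matrix.mulVec_neg, Matrix.mulVec_mulVec, JT_JT J hJ, Matrix.neg_mulVec,
    Matrix.one_mulVec, neg_neg]

theorem T_wedge (J : Matrix (Fin 4) (Fin 4) ℝ) (a b : Fin 4 → ℝ) :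
    Jᵀ * wedge a b * J = wedge (Jᵀ *ᵥ a) (Jᵀ *ᵥ b) := by
  unfold wedge
  rw [Matrix.mul_sub, Matrix.sub_mul, Matrix.mul_vecMulVec, Matrix.mul_vecMulVec,
    Matrix.vecMulVec_mul, Matrix.vecMulVec_mul, Matrix.mulVec_transpose, Matrix.mulVec_transpose]

theorem wedge_transpose (a b : Fin 4 → ℝ) : (wedge a b)ᵀ = -wedge a b := by
  unfold wedge
  rw [Matrix.transpose_sub, Matrix.transpose_vecMulVec, Matrix.transpose_vecMulVec]
  abel

theorem wedge_neg_left (a b : Fin 4 → ℝ) : wedge (-a) b = -wedge a b := by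
  ext i j; simp [wedge, Matrix.vecMulVec_apply]; ring

theorem wedge_neg_right (a b : Fin 4 → ℝ) : wedge a (-b) = -wedge a b := by
  ext i j; simp [wedge, Matrix.vecMulVec_apply]; ring

theorem wedge_swap (a b : Fin 4 → ℝ) : wedge a b = -wedge b a := by
  ext i j; simp [wedge, Matrix.vecMulVec_apply]

theorem vecMul_wedge (X a b : Fin 4 → ℝ) :
    X ᵥ* wedge a b = (X ⬝ᵥ a) • b - (X ⬝ᵥ b) • a := by
  unfold wedge
  rw [Matrix.vecMul_sub, Matrix.vecMul_vecMulVec, Matrix.vecMul_vecMulVec]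

theorem antiPart_T (J Om : Matrix (Fin 4) (Fin 4) ℝ) (hJ : J * J = -1) :
    Jᵀ * antiPart J Om * J = -antiPart J Om := by
  have h1 : Jᵀ * (Jᵀ * Om * J) * J = Om := by
    have : Jᵀ * (Jᵀ * Om * J) * J = (Jᵀ * Jᵀ) * Om * (J * J) := by
      simp only [Matrix.mul_assoc]
    rw [this, JT_JT J hJ, hJ]
    simp
  unfold antiPart
  rw [Matrix.mul_smul, Matrix.smul_mul, Matrix.mul_sub, Matrix.sub_mul, h1, ← smul_neg, neg_sub]

theorem antiPart_transpose (J Om : Matrix (Fin 4) (Fin 4) ℝ) (hOm : Omᵀ = -Om) :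
    (antiPart J Om)ᵀ = -antiPart J Om := by
  unfold antiPart
  rw [Matrix.transpose_smul, Matrix.transpose_sub, Matrix.transpose_mul, Matrix.transpose_mul,
    Matrix.transpose_transpose, hOm, ← smul_neg]
  congr 1
  simp only [Matrix.mul_neg, Matrix.neg_mul, Matrix.mul_assoc]
  abel


/-- Bilinear skewness of a skew matrix. -/
theorem skew_bilin (D : Matrix (Fin 4) (Fin 4) ℝ) (hD : Dᵀ = -D) (a b : Fin 4 → ℝ) :
    (a ᵥ* D) ⬝ᵥ b = -((b ᵥ* D) ⬝ᵥ a) := by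
  have h2 : a ᵥ* D = Dᵀ *ᵥ a := (Matrix.mulVec_transpose D a).symm
  rw [h2, hD, Matrix.neg_mulVec, neg_dotProduct, ← Matrix.dotProduct_mulVec, dotProduct_comm]

/-- Anti-invariance as a bilinear identity. -/
theorem antiInv_bilin (J P : Matrix (Fin 4) (Fin 4) ℝ) (hT : Jᵀ * P * J = -P)
    (a b : Fin 4 → ℝ) : ((J *ᵥ a) ᵥ* P) ⬝ᵥ (J *ᵥ b) = -((a ᵥ* P) ⬝ᵥ b) := by
  calc ((J *ᵥ a) ᵥ* P) ⬝ᵥ (J *ᵥ b) = (((J *ᵥ a) ᵥ* P) ᵥ* J) ⬝ᵥ b :=
        Matrix.dotProduct_mulVec _ J b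
    _ = (a ᵥ* (Jᵀ * P * J)) ⬝ᵥ b := by
        rw [← Matrix.vecMul_vecMul, ← Matrix.vecMul_vecMul, Matrix.vecMul_transpose]
    _ = -((a ᵥ* P) ⬝ᵥ b) := by rw [hT, Matrix.vecMul_neg, neg_dotProduct]

/-- The anti-invariant part satisfies `Ψ(X, J X) = 0`. -/
theorem avec_dot_JX (J Om : Matrix (Fin 4) (Fin 4) ℝ) (hJ : J * J = -1) (hOm : Omᵀ = -Om)
    (X : Fin 4 → ℝ) : (X ᵥ* antiPart J Om) ⬝ᵥ (J *ᵥ X) = 0 := by
  have hT : Jᵀ * antiPart J Om * J = -antiPart J Om := antiPart_T J Om hJ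
  have hS : (antiPart J Om)ᵀ = -antiPart J Om := antiPart_transpose J Om hOm
  have hJJ : J *ᵥ (J *ᵥ X) = -X := by
    rw [Matrix.mulVec_mulVec, hJ, Matrix.neg_mulVec, Matrix.one_mulVec]
  have h1 := skew_bilin (antiPart J Om) hS X (J *ᵥ X)
  have h2 := antiInv_bilin J (antiPart J Om) hT X (J *ᵥ X)
  rw [hJJ, dotProduct_neg] at h2
  linarith

/-- The key four-dimensional identity: the anti-invariant part is recovered from its contraction
with `X`. -/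
theorem antiPart_eq (J Om : Matrix (Fin 4) (Fin 4) ℝ) (hJ : J * J = -1) (hOm : Omᵀ = -Om) :
    antiPart J Om = wedge e0 (avec J Om) + wedge (fvec J) (Jᵀ *ᵥ avec J Om) := by
  have hT : Jᵀ * antiPart J Om * J = -antiPart J Om := antiPart_T J Om hJ
  have hS : (antiPart J Om)ᵀ = -antiPart J Om := antiPart_transpose J Om hOm
  have hzero : wedge e0 (avec J Om) + wedge (fvec J) (Jᵀ *ᵥ avec J Om) - antiPart J Om = 0 := by
    apply eq_zero_of_antiInv J _ hJ _ _ (Xvec J) (Xvec_ne_zero J)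
    · -- contraction with X vanishes
      rw [Matrix.vecMul_sub, Matrix.vecMul_add, vecMul_wedge, vecMul_wedge, dot_e0, Xvec_zero,
        dotProduct_comm (Xvec J) (fvec J), fvec_dot_Xvec J hJ]
      have h1 : Xvec J ⬝ᵥ avec J Om = 0 := by
        have := skew_bilin (antiPart J Om) hS (Xvec J) (Xvec J)
        rw [avec, dotProduct_comm]; linarith
      have h2 : Xvec J ⬝ᵥ (Jᵀ *ᵥ avec J Om) = 0 := by
        rw [Matrix.dotProduct_mulVec, Matrix.vecMul_transpose, dotProduct_comm, avec]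
        exact avec_dot_JX J Om hJ hOm (Xvec J)
      rw [h1, h2]
      simp [avec]
    · rw [Matrix.transpose_sub, Matrix.transpose_add, wedge_transpose, wedge_transpose, hS]
      abel
    · rw [Matrix.mul_sub, Matrix.sub_mul, Matrix.mul_add, Matrix.add_mul, T_wedge, T_wedge, hT,
        JT_e0, JT_fvec J hJ, Matrix.mulVec_mulVec, JT_JT J hJ, Matrix.neg_mulVec,
        Matrix.one_mulVec, wedge_neg_left, wedge_neg_right]
      abel
  exact (sub_eq_zero.mp hzero).symm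

theorem corrected_transpose (c : ℝ) (J Om : Matrix (Fin 4) (Fin 4) ℝ) (hOm : Omᵀ = -Om) :
    (corrected c J Om)ᵀ = -corrected c J Om := by
  unfold corrected
  rw [Matrix.transpose_add, Matrix.transpose_sub, Matrix.transpose_smul, Matrix.transpose_smul,
    wedge_transpose, wedge_transpose, hOm]
  simp only [smul_neg]
  abel

theorem corrected_inv (c : ℝ) (J Om : Matrix (Fin 4) (Fin 4) ℝ) (hJ : J * J = -1)
    (hOm : Omᵀ = -Om) : Jᵀ * corrected c J Om * J = corrected c J Om := by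
  have hK := antiPart_eq J Om hJ hOm
  have hTOm : Jᵀ * Om * J = Om - (2 : ℝ) • antiPart J Om := by
    unfold antiPart
    rw [smul_smul]
    norm_num
  unfold corrected
  rw [Matrix.mul_add, Matrix.add_mul, Matrix.mul_sub, Matrix.sub_mul, Matrix.mul_smul,
    Matrix.smul_mul, Matrix.mul_smul, Matrix.smul_mul, T_wedge, T_wedge, hTOm, JT_e0,
    JT_fvec J hJ, wedge_neg_left, wedge_neg_left, hK, wedge_swap (fvec J) e0]
  simp only [smul_add, smul_neg, neg_neg]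
  abel

theorem corrected_apply_of_ne (c : ℝ) (J Om : Matrix (Fin 4) (Fin 4) ℝ) (i j : Fin 4)
    (hi : i ≠ 0) (hj : j ≠ 0) : corrected c J Om i j = Om i j := by
  simp [corrected, wedge, Matrix.vecMulVec_apply, e0, hi, hj]

/-- The value of the corrected form on `(v, J v)`. -/
theorem corrected_tame (c : ℝ) (J Om : Matrix (Fin 4) (Fin 4) ℝ) (hJ : J * J = -1)
    (v : Fin 4 → ℝ) :
    v ⬝ᵥ (corrected c J Om *ᵥ (J *ᵥ v)) = v ⬝ᵥ (Om *ᵥ (J *ᵥ v))
      - 2 * (v 0 * (avec J Om ⬝ᵥ (J *ᵥ v))) - 2 * ((avec J Om ⬝ᵥ v) * (fvec J ⬝ᵥ v))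
      + c * (v 0 ^ 2 + (fvec J ⬝ᵥ v) ^ 2) := by
  have hJJ : J *ᵥ (J *ᵥ v) = -v := by
    rw [Matrix.mulVec_mulVec, hJ, Matrix.neg_mulVec, Matrix.one_mulVec]
  have hw : ∀ a b w : Fin 4 → ℝ, v ⬝ᵥ (wedge a b *ᵥ w) = (v ⬝ᵥ a) * (b ⬝ᵥ w) - (v ⬝ᵥ b) * (a ⬝ᵥ w) := by
    intro a b w
    rw [Matrix.dotProduct_mulVec, vecMul_wedge, sub_dotProduct, smul_dotProduct, smul_dotProduct]
    simp
  have h1 : e0 ⬝ᵥ (J *ᵥ v) = -(fvec J ⬝ᵥ v) := by rw [fvec_dot, e0_dot]; ring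
  have h2 : fvec J ⬝ᵥ (J *ᵥ v) = v 0 := by rw [fvec_dot, hJJ]; simp
  unfold corrected
  rw [Matrix.add_mulVec, Matrix.sub_mulVec, Matrix.smul_mulVec, Matrix.smul_mulVec,
    dotProduct_add, dotProduct_sub, dotProduct_smul, dotProduct_smul, hw, hw, dot_e0, h1, h2,
    dotProduct_comm v (fvec J), dotProduct_comm v (avec J Om)]
  simp only [smul_eq_mul]
  ring

end Vale.Agent.H55.Tamed
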