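import Vale.Agent.H55.EquivImm
import Vale.Agent.H55.Primitive

/-!
`S¹`-invariant metrics on the torus with rational twist admit smooth isometric immersions into
`ℝ⁴`.
-/

namespace Vale.Agent.H55.Imm

open scoped ContDiff

theorem deriv_periodic (G : ℝ → ℝ) (pG : ∀ x, G (x + 1) = G x) (x : ℝ) :
    deriv G (x + 1) = deriv G x := by
  have h : (fun x => G (x + 1)) = G := funext pG
  have h2 := deriv_comp_add_const G 1 x
  rw [h] at h2
  exact h2.symm

theorem rational_twist (E F G : ℝ → ℝ)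
    (hE : ContDiff ℝ ∞ E) (hF : ContDiff ℝ ∞ F) (hG : ContDiff ℝ ∞ G)
    (pE : ∀ x, E (x + 1) = E x) (pF : ∀ x, F (x + 1) = F x) (pG : ∀ x, G (x + 1) = G x)
    (hGpos : ∀ x, 0 < G x) (hdet : ∀ x, 0 < E x * G x - F x ^ 2)
    (htw : ∃ q : ℚ, ∫ x in (0 : ℝ)..1, F x / G x = q) :
    ∃ Φ : ℝ × ℝ → EuclideanSpace ℝ (Fin 4),
      ContDiff ℝ ∞ Φ ∧ (∀ p : ℝ × ℝ, Φ (p.1 + 1, p.2) = Φ p) ∧
      (∀ p : ℝ × ℝ, Φ (p.1, p.2 + 1) = Φ p) ∧
      ∀ p : ℝ × ℝ,
        inner ℝ (fderiv ℝ Φ p (1, 0)) (fderiv ℝ Φ p (1, 0)) = E p.1 ∧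
        inner ℝ (fderiv ℝ Φ p (1, 0)) (fderiv ℝ Φ p (0, 1)) = F p.1 ∧
        inner ℝ (fderiv ℝ Φ p (0, 1)) (fderiv ℝ Φ p (0, 1)) = G p.1 := by
  obtain ⟨q, hq⟩ := htw
  have hGne : ∀ x, G x ≠ 0 := fun x => (hGpos x).ne'
  have hdG : ContDiff ℝ ∞ (deriv G) := (contDiff_infty_iff_deriv.mp hG).2
  -- the two auxiliary periodic functions
  set D : ℝ → ℝ := fun x => E x - F x ^ 2 / G x with hD
  set M : ℝ → ℝ := fun x => deriv G x ^ 2 / (4 * G x) with hM
  have cD : ContDiff ℝ ∞ D := hE.sub ((hF.pow 2).div hG hGne)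
  have cM : ContDiff ℝ ∞ M := (hdG.pow 2).div (contDiff_const.mul hG)
    (fun x => by have := hGpos x; positivity)
  have pD : ∀ x, D (x + 1) = D x := by intro x; simp only [hD, pE, pF, pG]
  have pM : ∀ x, M (x + 1) = M x := by
    intro x; simp only [hM, pG, deriv_periodic G pG]
  have posD : ∀ x, 0 < D x := by
    intro x
    have h : D x = (E x * G x - F x ^ 2) / G x := by
      have hg := hGne x
      simp only [hD]; field_simp
    rw [h]
    exact div_pos (hdet x) (hGpos x)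
  obtain ⟨δ, hδ, hδD⟩ := exists_pos_lower_bound D cD.continuous pD posD
  obtain ⟨Mmax, hMmax⟩ := exists_upper_bound M cM.continuous pM
  -- the frequency
  set N : ℕ := ⌈Mmax / δ⌉₊ + 1 with hN
  set k : ℕ := q.den * N with hk
  have hN1 : (1 : ℝ) ≤ N := by
    rw [hN]; push_cast; linarith [Nat.cast_nonneg (α := ℝ) ⌈Mmax / δ⌉₊]
  have hNgt : Mmax / δ < N := by
    rw [hN]; push_cast
    linarith [Nat.le_ceil (Mmax / δ)]
  have hkN : (N : ℝ) ≤ k := by
    rw [hk]; push_cast
    have hden : (1 : ℝ) ≤ q.den := by exact_mod_cast q.den_pos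
    nlinarith
  set κ : ℝ := ((k : ℤ) : ℝ) * (2 * Real.pi) with hκ
  have hπ : (1 : ℝ) ≤ 2 * Real.pi := by linarith [Real.pi_gt_three]
  have hκk : (k : ℝ) ≤ κ := by
    rw [hκ]; push_cast
    have : (0 : ℝ) ≤ k := Nat.cast_nonneg k
    nlinarith
  have hκpos : 0 < κ := by linarith
  have hκ2 : Mmax / δ < κ ^ 2 := by
    have h1 : (N : ℝ) ≤ κ := le_trans hkN hκk
    nlinarith
  have hMκ : Mmax < δ * κ ^ 2 := by
    rw [div_lt_iff₀ hδ] at hκ2
    linarith
  -- the speed of the planar curve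
  set W : ℝ → ℝ := fun x => D x - M x / κ ^ 2 with hW
  have posW : ∀ x, 0 < W x := by
    intro x
    have h1 : M x / κ ^ 2 < δ := by
      rw [div_lt_iff₀ (by positivity)]
      linarith [hMmax x]
    simp only [hW]
    linarith [hδD x]
  have cW : ContDiff ℝ ∞ W := cD.sub (cM.div_const _)
  have pW : ∀ x, W (x + 1) = W x := by intro x; simp only [hW, pD, pM]
  set w : ℝ → ℝ := fun x => Real.sqrt (W x) with hw
  have cw : ContDiff ℝ ∞ w := cW.sqrt (fun x => (posW x).ne')
  have pw : ∀ x, w (x + 1) = w x := by intro x; simp only [hw, pW]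
  have posw : ∀ x, 0 < w x := fun x => Real.sqrt_pos.mpr (posW x)
  have w2 : ∀ x, w x ^ 2 = W x := fun x => Real.sq_sqrt (posW x).le
  set L : ℝ := prim w 1 with hL
  have hLpos : 0 < L := by
    rw [hL]; unfold prim
    exact intervalIntegral.intervalIntegral_pos_of_pos_on (cw.continuous.intervalIntegrable _ _)
      (fun x _ => posw x) one_pos
  -- the twist primitive
  set u : ℝ → ℝ := fun x => F x / G x with hu
  have cu : ContDiff ℝ ∞ u := hF.div hG hGne
  have pu : ∀ x, u (x + 1) = u x := by intro x; simp only [hu, pF, pG]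
  have hc : prim u 1 = q := hq
  -- integrality of k * q
  set n2 : ℤ := (N : ℤ) * q.num with hn2
  have hkq : (k : ℝ) * (q : ℝ) = (n2 : ℝ) := by
    have h1 : ((q.den : ℚ) * q : ℚ) = (q.num : ℚ) := Rat.den_mul_eq_num q
    have h2 : ((q.den : ℝ) * (q : ℝ)) = (q.num : ℝ) := by exact_mod_cast h1
    rw [hk, hn2]; push_cast
    rw [mul_right_comm, h2]; ring
  have hπ0 : Real.pi ≠ 0 := Real.pi_ne_zero
  apply exists_immersion_of_polar E F G (fun _ => L / (2 * Real.pi))
    (fun x => 2 * Real.pi * prim w x / L) (fun x => Real.sqrt (G x) / κ)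
    (fun x => κ * prim u x) 0 (k : ℤ) 1 n2
  · exact contDiff_const
  · exact ((contDiff_const.mul (contDiff_prim w cw)).div_const _)
  · exact (hG.sqrt hGne).div_const _
  · exact contDiff_const.mul (contDiff_prim u cu)
  · intro x; rfl
  · intro x; simp only [pG]
  · intro x
    rw [prim_add_one w cw.continuous pw x]
    field_simp
    ring
  · intro x
    rw [prim_add_one u cu.continuous pu x, hc]
    have : κ * (q : ℝ) = (n2 : ℝ) * (2 * Real.pi) := by
      rw [← hkq, hκ]; push_cast; ring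
    rw [mul_add, this]
  · intro x
    have d1 : deriv (fun x => 2 * Real.pi * prim w x / L) x = 2 * Real.pi * w x / L :=
      (((hasDerivAt_prim w cw.continuous x).const_mul (2 * Real.pi)).div_const L).deriv
    have d2 : deriv (fun x => Real.sqrt (G x) / κ) x
        = deriv G x / (2 * Real.sqrt (G x)) / κ :=
      (((hG.differentiable (by simp) x).hasDerivAt.sqrt (hGne x)).div_const κ).deriv
    have d3 : deriv (fun x => κ * prim u x) x = κ * u x :=
      ((hasDerivAt_prim u cu.continuous x).const_mul κ).deriv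
    have hsq : Real.sqrt (G x) ^ 2 = G x := Real.sq_sqrt (hGpos x).le
    have hsq0 : Real.sqrt (G x) ≠ 0 := (Real.sqrt_pos.mpr (hGpos x)).ne'
    rw [d1, d2, d3]
    simp only [deriv_const]
    have e1 : (L / (2 * Real.pi)) ^ 2 * (2 * Real.pi * w x / L) ^ 2 = W x := by
      rw [← w2 x]; field_simp
    have e2 : (deriv G x / (2 * Real.sqrt (G x)) / κ) ^ 2 = M x / κ ^ 2 := by
      simp only [hM]
      rw [div_pow, div_pow, mul_pow, hsq]
      norm_num
    have e3 : (Real.sqrt (G x) / κ) ^ 2 * (κ * u x) ^ 2 = F x ^ 2 / G x := by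
      rw [div_pow, hsq]; simp only [hu]
      field_simp
    have e4 : W x = E x - F x ^ 2 / G x - M x / κ ^ 2 := rfl
    rw [e1, e2, e3, e4]
    ring
  · intro x
    have d3 : deriv (fun x => κ * prim u x) x = κ * u x :=
      ((hasDerivAt_prim u cu.continuous x).const_mul κ).deriv
    have hsq : Real.sqrt (G x) ^ 2 = G x := Real.sq_sqrt (hGpos x).le
    have hg := hGne x
    have hκ0 : κ ≠ 0 := hκpos.ne'
    have e : (Real.sqrt (G x) / κ) ^ 2 = G x / κ ^ 2 := by rw [div_pow, hsq]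
    rw [d3, e, ← hκ]
    simp only [Int.cast_zero, zero_mul, zero_add, hu]
    field_simp
  · intro x
    have hsq : Real.sqrt (G x) ^ 2 = G x := Real.sq_sqrt (hGpos x).le
    have hκ0 : κ ≠ 0 := hκpos.ne'
    have e : (Real.sqrt (G x) / κ) ^ 2 = G x / κ ^ 2 := by rw [div_pow, hsq]
    rw [e, ← hκ]
    simp only [Int.cast_zero, zero_mul]
    field_simp
    ring

end Vale.Agent.H55.Imm
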